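import Vale.Agent.P101.H413.Main

/-! If the central sequence algebra of a unital separable C*-algebra `A` has no characters, then
`A` is `𝒵`-stable; moreover a uniform finite-stage version, for finitely many commuting copies of a
characterless algebra, a version for infinite tensor products, and a version for C*-algebras of
arbitrary density. -/

namespace Vale.Agent.Results.P101.UniformTensorPowers

universe u v

open Vale.Agent.P101

theorem result :
    (∀ (A : Type u) [CStarAlgebra A] [TopologicalSpace.SeparableSpace A] (ω : Ultrafilter ℕ),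
      (ω : Filter ℕ) ≤ Filter.cofinite →
      ((¬ ∃ χ : (ℕ → A) → ℂ, IsCharacter (ω : Filter ℕ) χ) → IsZStable A) ∧
      ((¬ ∃ χ : (ℕ → A) → ℂ, IsCharacter (ω : Filter ℕ) χ) ↔
        DimDropMaps A (ω : Filter ℕ) 2 3) ∧
      ((¬ ∃ χ : (ℕ → A) → ℂ, IsCharacter (ω : Filter ℕ) χ) ↔
        ∀ p q : ℕ, 0 < p → 0 < q → Nat.Coprime p q → DimDropMaps A (ω : Filter ℕ) p q)) ∧
    (∀ (m : ℕ) (R : ℝ) (p q : ℕ), 0 < p → 0 < q → Nat.Coprime p q →
      ∃ N : ℕ, ∀ (D : Type u) (B : Type v) [CStarAlgebra D] [CStarAlgebra B],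
        CommutatorSum D m R → CommutingCopies D B N → DimDropHom B p q) ∧
    (∀ (D : Type u) [CStarAlgebra D],
      (IsEmpty (D →⋆ₐ[ℂ] ℂ) ↔ ∃ (m : ℕ) (R : ℝ), CommutatorSum D m R) ∧
      (IsEmpty (D →⋆ₐ[ℂ] ℂ) ↔ ∃ n : ℕ, ∀ (B : Type v) [CStarAlgebra B],
        CommutingCopies D B n → DimDropHom B 2 3)) ∧
    (∀ (B : Type u) [CStarAlgebra B] [TopologicalSpace.SeparableSpace B],
      (∀ (D : ℕ → Type v) [∀ n, CStarAlgebra (D n)] (φ : ∀ n, D n →⋆ₐ[ℂ] B) (m : ℕ) (R : ℝ),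
        (∀ n, CommutatorSum (D n) m R) → IsInfiniteProduct φ → IsZStable B) ∧
      (∀ (D : Type v) [CStarAlgebra D] (φ : ℕ → D →⋆ₐ[ℂ] B),
        IsEmpty (D →⋆ₐ[ℂ] ℂ) → IsInfiniteProduct (D := fun _ => D) φ → IsZStable B)) ∧
    (∀ (A : Type u) [CStarAlgebra A] (ω : Ultrafilter ℕ), (ω : Filter ℕ) ≤ Filter.cofinite →
      (∀ S : Set A, S.Countable →
        ¬ ∃ χ : (ℕ → A) → ℂ, IsCharacterOver S (ω : Filter ℕ) χ) →
      IsSeparablyZStable A) :=
  ⟨fun A _ _ ω hω => main_all A ω hω,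
    fun m R p q hp hq hpq => H413.uniform' m R p q hp hq hpq,
    fun D _ => ⟨H413.isEmpty_iff_sum D, H413.isEmpty_iff_copies D⟩,
    fun B _ _ => ⟨fun D _ φ m R hD hφ => H413.infinite_product φ hφ m R hD,
      fun D _ φ hD hφ => H413.infinite_power hD φ hφ⟩,
    fun A _ ω _ h => H413.separablyZStable (ω : Filter ℕ) h⟩

end Vale.Agent.Results.P101.UniformTensorPowers
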