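import Vale.Agent.P101.H574.Final
import Vale.Agent.P101.H574.Cross

/-! If the central sequence algebra of a unital separable C*-algebra `A` has no characters, then
`A` is `𝒵`-stable; moreover a version for inclusions `D ⊆ A` with an action of a countable group,
and one for crossed products. -/

namespace Vale.Agent.Results.P101.ZStableInclusions

universe u v

open Vale.Agent.P101

theorem result (A : Type u) [CStarAlgebra A] [TopologicalSpace.SeparableSpace A]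
    (ω : Ultrafilter ℕ) (hω : (ω : Filter ℕ) ≤ Filter.cofinite) :
    (((¬ ∃ χ : (ℕ → A) → ℂ, IsCharacter (ω : Filter ℕ) χ) → IsZStable A) ∧
      ((¬ ∃ χ : (ℕ → A) → ℂ, IsCharacter (ω : Filter ℕ) χ) ↔
        DimDropMaps A (ω : Filter ℕ) 2 3) ∧
      ((¬ ∃ χ : (ℕ → A) → ℂ, IsCharacter (ω : Filter ℕ) χ) ↔
        ∀ p q : ℕ, 0 < p → 0 < q → Nat.Coprime p q → DimDropMaps A (ω : Filter ℕ) p q)) ∧
    (∀ (G : Type v) [Group G] [Countable G] (α : G →* (A ≃⋆ₐ[ℂ] A)) (D : StarSubalgebra ℂ A),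
      IsClosed (D : Set A) → (∀ g, ∀ d ∈ D, α g d ∈ D) →
      ((¬ ∃ χ : (ℕ → A) → ℂ, IsFixedCharacter α D (ω : Filter ℕ) χ) → IsZStableOver α D) ∧
      ((¬ ∃ χ : (ℕ → A) → ℂ, IsFixedCharacter α D (ω : Filter ℕ) χ) →
        ∀ (E : Type u) [CStarAlgebra E] (φ : A →⋆ₐ[ℂ] E) (u : G → E),
          IsCovariantPair α φ u → IsZStable E) ∧
      ((¬ ∃ χ : (ℕ → A) → ℂ, IsFixedCharacter α D (ω : Filter ℕ) χ) ↔
        FixedDimDropMaps α D (ω : Filter ℕ) 2 3) ∧
      ((¬ ∃ χ : (ℕ → A) → ℂ, IsFixedCharacter α D (ω : Filter ℕ) χ) ↔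
        ∀ p q : ℕ, 0 < p → 0 < q → Nat.Coprime p q →
          FixedDimDropMaps α D (ω : Filter ℕ) p q)) :=
  ⟨main_all A ω hω,
    fun _ _ _ α D hD hαD =>
      have h := H574.main_over α D hD hαD ω hω
      ⟨h.1, fun hno _ _ _ _ hE => H574.zStable_of_covariant hω hno hE, h.2⟩⟩

end Vale.Agent.Results.P101.ZStableInclusions
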